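import Vale.Agent.P216.V773.WG
import Vale.Agent.P216.V1.WRes

/-!
# P216-V, V1-G (helper773): `WS X` holds
-/

namespace Vale.Agent.P216.V773

open Vale.Agent.P231.Fm Vale.Agent.P216.V1 Vale.Agent.P216.H285V

/-- the properties of `W` at one scale hold for every set -/
theorem ws {E : Type} [PseudoMetricSpace E] (X : Set E) : WS X where
  res h n f := Wc.res_W (Set.Subset.refl X) h n f
  surj0 hε a ha hd := by
    obtain ⟨f, hf, b, hb, -, h⟩ := Wc.W_surj (X := X) ha hd
    refine ⟨f, hf, ?_⟩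
    rw [hb rfl, Form.d_zero, add_zero] at h
    exact h
  surj hε n a ha hd := by
    obtain ⟨f, hf, b, -, hb, h⟩ := Wc.W_surj (X := X) ha hd
    exact ⟨f, hf, b, hb n rfl, h⟩
  inj0 hε f hf h := Wc.W_inj_zero hf h
  inj hε n f b hf hb h := Wc.W_inj hf hb h

end Vale.Agent.P216.V773
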