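import Vale.Agent.P216.V773.Cmp
import Vale.Agent.P216.V773.WSI

/-!
# P216-V, V2-M (helper773): the second odd generator of a closed simply connected manifold
-/

open Set Bundle Manifold
open scoped ContDiff

namespace Vale.Agent.P216.V773

open Vale.Agent.P216.H285V
open Vale.Agent.P216.V706 (Two)
open Vale.Agent.P216.ASCoh (Monogenic)

/-- **V2-M.** The germ algebra of forms of a closed simply connected Riemannian manifold whose
rational cohomology ring is not generated by one class has a second odd generator. -/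
theorem two_M (E : Type) [NormedAddCommGroup E] [NormedSpace ℝ E] [FiniteDimensional ℝ E]
    {N : Type} [MetricSpace N] [CompactSpace N] [ChartedSpace E N] [IsManifold 𝓘(ℝ, E) ∞ N]
    [RiemannianBundle (fun x : N => TangentSpace 𝓘(ℝ, E) x)]
    [IsContMDiffRiemannianBundle 𝓘(ℝ, E) ∞ E (fun x : N => TangentSpace 𝓘(ℝ, E) x)]
    [IsRiemannianManifold 𝓘(ℝ, E) N] [SimplyConnectedSpace N]
    (hn : 1 ≤ Module.finrank ℝ E) (hM : ∀ d h : ℕ, ¬ Monogenic N ℚ d h) :
    ∃ f₂, Nonempty (Two (vr (univ : Set N)).dga f₂) :=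
  two_M_of E (ws univ) hn hM

end Vale.Agent.P216.V773
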