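import Vale.Agent.P216.V773.Rep
import Vale.Agent.P216.V773.TwoM

/-!
# P216-V, REP for a closed simply connected manifold
-/

open Set Bundle Manifold
open scoped ContDiff

namespace Vale.Agent.P216.V773

open Vale.Agent.P216.V609
open Vale.Agent.P216.V706 (Two)
open Vale.Agent.P216.V994 (Pair pairOf)
open Vale.Agent.P216.V775 (CD Tw PTw)
open Vale.Agent.P216.H285V
open Vale.Agent.P216.ASCoh (Monogenic)

/-- **REP for a manifold**: the second odd generator, and at one scale `ε` a pair, its Koszul tower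
and the two classes, whose germs are those of the minimal model. -/
theorem rep_M (E : Type) [NormedAddCommGroup E] [NormedSpace ℝ E] [FiniteDimensional ℝ E]
    {N : Type} [MetricSpace N] [CompactSpace N] [ChartedSpace E N] [IsManifold 𝓘(ℝ, E) ∞ N]
    [RiemannianBundle (fun x : N => TangentSpace 𝓘(ℝ, E) x)]
    [IsContMDiffRiemannianBundle 𝓘(ℝ, E) ∞ E (fun x : N => TangentSpace 𝓘(ℝ, E) x)]
    [IsRiemannianManifold 𝓘(ℝ, E) N] [SimplyConnectedSpace N]
    (hn : 1 ≤ Module.finrank ℝ E) (hM : ∀ d h : ℕ, ¬ Monogenic N ℚ d h) :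
    ∃ (f₂ : ℕ) (T : Two (vr (univ : Set N)).dga f₂), ∀ ε₁ : ℝ, 0 < ε₁ →
      ∃ (ε : ℝ) (h : 0 < ε), ε ≤ ε₁ ∧ ∃ (P : Pair (sc (vr (univ : Set N)) ε).C)
        (T₀ : Tw (sc (vr (univ : Set N)) ε)) (ê : P.σ → T₀.top.A),
        P.map (gmH _ h) = pairOf (D := (vr (univ : Set N)).cdga) T ∧ PTw P T₀ ê := by
  obtain ⟨f₂, ⟨T⟩⟩ := two_M E hn hM
  exact ⟨f₂, T, fun ε₁ h₁ => rep_of _ T h₁⟩

end Vale.Agent.P216.V773
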