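import Vale.Agent.P216.V775.GoodB
import Vale.Agent.P216.H285V.Germ

/-!
# P216-V, REP: a pair over a direct limit comes from one index

`Sys.exists_pair`: every `Pair` of the limit is the image of a `Pair` of one `S.C i`.
`PTw.push`, `PTw.push_y₁`, `PTw.push_y₂`: base change of the Koszul tower of a pair and its classes.
`exists_rep`: the same for germs of forms, with the Koszul tower.
-/

universe u v v' w'

set_option linter.unusedSectionVars false
set_option linter.checkUnivs false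

open MvPolynomial Finset

namespace Vale.Agent.P216.V773

open Vale.Agent.P216.V609
open Vale.Agent.P216.V706 (ev Two)
open Vale.Agent.P216.V994 (Pair Kz Base PD WH cen pairOf)
open Vale.Agent.P216.V775 (CD Tw PTw ofPair KTw Good)
open Vale.Agent.P216.H285V (Sys toDga)

/-! ### Morphisms and pairs -/

section Hom

variable {k : Type*} [Field k] {A A' A'' : Type*} [Ring A] [Algebra k A] [Ring A']
  [Algebra k A'] [Ring A''] [Algebra k A''] {C : Cdga k A} {C' : Cdga k A'} {C'' : Cdga k A''}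

theorem hom_ext {φ ψ : Cdga.Hom C C'} (h : ∀ a, φ.f a = ψ.f a) : φ = ψ := by
  obtain ⟨f, _, _, _⟩ := φ
  obtain ⟨g, _, _, _⟩ := ψ
  obtain rfl : f = g := AlgHom.ext h
  rfl

/-- `P` with another base and other `z₁`, `z₂`, over another algebra -/
theorem pair_eq (P : Pair C') (φ : Cdga.Hom C C') : ∀ (B : Base C P.w P.f)
    (_ : B.map φ = P.B)
    (_ : ∀ j, C.d (B.x j) = B.y * ev B.x (∑ i, MvPolynomial.X i * P.Q1 j i)) (z₁ z₂ : A)
    (_ : φ.f z₁ = P.z₁) (_ : φ.f z₂ = P.z₂) (_ : z₁ ∈ C.deg (2 * P.n₁ + 1))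
    (_ : z₂ ∈ C.deg (2 * P.n₂ + 1)) (_ : C.d z₁ = ev B.x P.P₁) (_ : C.d z₂ = ev B.x P.P₂),
    ∃ P' : Pair C, P'.map φ = P := by
  obtain ⟨σ, w, hw, f, f_pos, B₀, Q1, wQ1, dx₀, n₁, n₂, n₁_pos, n_le, P₁, P₂, w₁, w₁_mem, dw₁, w₂,
    w₂_mem, dw₂, p₁, p₂⟩ := P
  dsimp only
  intro B hB dx z₁ z₂ hz₁ hz₂ m₁ m₂ d₁ d₂
  refine ⟨⟨σ, w, hw, f, f_pos, B, Q1, wQ1, dx, n₁, n₂, n₁_pos, n_le, P₁, P₂, z₁, m₁, d₁, z₂, m₂,
    d₂, p₁, p₂⟩, ?_⟩
  cases hB
  cases hz₁
  cases hz₂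
  rfl

theorem pair_map_map (P : Pair C) (φ : Cdga.Hom C C') (ψ : Cdga.Hom C' C'') :
    (P.map φ).map ψ = P.map (ψ.comp φ) := rfl

end Hom

/-! ### Representatives at one index -/

section Sys

variable {k : Type} [Field k] {ι : Type} [Preorder ι] {G : ι → Type u} [∀ i, Ring (G i)]
  [∀ i, Algebra k (G i)] (S : Sys k G) [IsDirectedOrder ι] [Nonempty ι]

theorem ofHom_comp {i j : ι} (h : i ≤ j) : (S.ofHom j).comp (S.f i j h) = S.ofHom i :=
  hom_ext fun a => S.of_map h a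

/-- a common late index -/
theorem exists_ge_all {τ : Type*} [Finite τ] (i₀ : ι) (l : τ → ι) : ∃ i, i₀ ≤ i ∧ ∀ t, l t ≤ i := by
  obtain ⟨i₁, h₁⟩ := Finite.exists_le l
  obtain ⟨i, h, h'⟩ := directed_of (· ≤ ·) i₀ i₁
  exact ⟨i, h, fun t => (h₁ t).trans h'⟩

/-- homogeneous representatives of a finite family -/
theorem exists_fam {τ : Type*} [Finite τ] (i₀ : ι) (q : τ → ℕ) (z : τ → S.L)
    (hz : ∀ t, z t ∈ S.cdga.deg (q t)) :
    ∃ i, i₀ ≤ i ∧ ∃ x : τ → G i, (∀ t, x t ∈ (S.C i).deg (q t)) ∧ ∀ t, S.of i (x t) = z t := by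
  choose l x hx h using fun t => (S.mem_deg'.1 (hz t) : ∃ i, ∃ x ∈ (S.C i).deg (q t), z t = S.of i x)
  obtain ⟨i, h₀, h₁⟩ := exists_ge_all i₀ l
  exact ⟨i, h₀, fun t => (S.f (l t) i (h₁ t)).f (x t), fun t => (S.f _ _ _).deg (hx t),
    fun t => (S.of_map (h₁ t) (x t)).trans (h t).symm⟩

/-- finitely many equations at one index -/
theorem exists_eqs {τ : Type*} [Finite τ] {i : ι} (a b : τ → G i)
    (h : ∀ t, S.of i (a t) = S.of i (b t)) :
    ∃ j, ∃ hj : i ≤ j, ∀ t, (S.f i j hj).f (a t) = (S.f i j hj).f (b t) := by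
  choose l hl e using fun t => S.of_inj_iff.1 (h t)
  obtain ⟨j, h₀, h₁⟩ := exists_ge_all i l
  refine ⟨j, h₀, fun t => ?_⟩
  rw [← S.map_map i (l t) j (hl t) (h₁ t), ← S.map_map i (l t) j (hl t) (h₁ t)]
  exact congrArg _ (e t)

/-- **A base of the limit comes from one index.** -/
theorem exists_base {σ : Type} [Fintype σ] {w : σ → ℕ} {f : ℕ} (B : Base S.cdga w f) (i₀ : ι) :
    ∃ i, i₀ ≤ i ∧ ∃ B' : Base (S.C i) w f, B'.map (S.ofHom i) = B := by
  obtain ⟨i, hi, x, hx, ex⟩ := exists_fam S i₀ (fun t : Option σ => t.elim (2 * f + 1)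
    fun j => 2 * w j) (fun t => t.elim B.y fun j => (B.x j : S.L)) (fun t => by
      cases t with
      | none => exact B.y_mem
      | some j => exact B.x_mem j)
  obtain ⟨l, hl, h0⟩ := exists_eqs S (τ := Unit) (fun _ => (S.C i).d (x none)) (fun _ => 0)
    fun _ => by
      have h1 : S.of i (x none) = B.y := ex none
      show S.cdga.d (S.of i (x none)) = S.of i 0
      rw [h1, B.dy, map_zero]
  have hm : ∀ j, (S.f i l hl).f (x (some j)) ∈ (S.C l).deg (2 * w j) := fun j =>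
    (S.f i l hl).deg (hx (some j))
  refine ⟨l, hi.trans hl, ⟨fun j => cen (S.C l) (hm j), hm, (S.f i l hl).f (x none),
    (S.f i l hl).deg (hx none), ?_⟩, ?_⟩
  · rw [← (S.f i l hl).d, h0 (), map_zero]
  · exact Base.ext' (fun j => (S.of_map hl _).trans (ex (some j)))
      ((S.of_map hl _).trans (ex none))

/-- **A pair over the limit comes from one index.** -/
theorem exists_pair (T : Pair S.cdga) (i₀ : ι) :
    ∃ i, i₀ ≤ i ∧ ∃ T' : Pair (S.C i), T'.map (S.ofHom i) = T := by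
  obtain ⟨i₁, h₁, B₁, hB₁⟩ := exists_base S T.B i₀
  obtain ⟨i₂, h₂, z, hz, ez⟩ := exists_fam S i₁ (fun t : Bool => bif t then 2 * T.n₁ + 1
    else 2 * T.n₂ + 1) (fun t => bif t then T.z₁ else T.z₂) (fun t => by
      cases t with
      | true => exact T.z₁_mem
      | false => exact T.z₂_mem)
  have hB₂ : (B₁.map (S.f i₁ i₂ h₂)).map (S.ofHom i₂) = T.B := by
    rw [Base.map_map, ofHom_comp, hB₁]
  generalize hB : B₁.map (S.f i₁ i₂ h₂) = B₂ at hB₂
  obtain ⟨l, hl, h0⟩ := exists_eqs S (τ := Option T.σ ⊕ Unit)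
    (fun t => t.elim (fun t => t.elim ((S.C i₂).d (z true)) fun j => (S.C i₂).d (B₂.x j))
      fun _ => (S.C i₂).d (z false))
    (fun t => t.elim (fun t => t.elim (ev B₂.x T.P₁) fun j =>
      B₂.y * ev B₂.x (∑ i, MvPolynomial.X i * T.Q1 j i)) fun _ => ev B₂.x T.P₂)
    (by
      have hev : ∀ F, S.of i₂ (ev B₂.x F) = ev T.B.x F := fun F => by
        rw [← hB₂, Base.map_ev]
        rfl
      rintro ((_ | j) | _)
      · show S.cdga.d (S.of i₂ (z true)) = S.of i₂ (ev B₂.x T.P₁)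
        rw [hev, ← T.dz₁]
        exact congrArg _ (ez true)
      · show S.cdga.d (S.of i₂ (B₂.x j)) = S.of i₂ (B₂.y * ev B₂.x _)
        rw [map_mul, hev]
        have e1 : S.of i₂ (B₂.x j) = T.B.x j := by rw [← hB₂]; rfl
        have e2 : S.of i₂ B₂.y = T.B.y := by rw [← hB₂]; rfl
        rw [e1, e2, T.dx]
      · show S.cdga.d (S.of i₂ (z false)) = S.of i₂ (ev B₂.x T.P₂)
        rw [hev, ← T.dz₂]
        exact congrArg _ (ez false))
  refine ⟨l, (h₁.trans h₂).trans hl, pair_eq T (S.ofHom l) (B₂.map (S.f i₂ l hl)) ?_ ?_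
    ((S.f i₂ l hl).f (z true)) ((S.f i₂ l hl).f (z false)) ?_ ?_ ?_ ?_ ?_ ?_⟩
  · rw [Base.map_map, ofHom_comp, hB₂]
  · intro j
    have := h0 (Sum.inl (some j))
    rw [Base.map_ev, Base.map_x, Base.map_y, ← (S.f i₂ l hl).d, ← map_mul]
    exact this
  · exact (S.of_map hl _).trans (ez true)
  · exact (S.of_map hl _).trans (ez false)
  · exact (S.f i₂ l hl).deg (hz true)
  · exact (S.f i₂ l hl).deg (hz false)
  · rw [Base.map_ev, ← (S.f i₂ l hl).d]
    exact h0 (Sum.inl none)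
  · rw [Base.map_ev, ← (S.f i₂ l hl).d]
    exact h0 (Sum.inr ())

end Sys

/-! ### The Koszul tower of a pair: base change -/

section Push

variable {k : Type w'} [Field k] [CharZero k] {X : CD.{v} k} {Y : CD.{v'} k} {P : Pair X.C}
  {T : Tw X} {ê : P.σ → T.top.A}

/-- **base change** of the Koszul tower of a pair -/
theorem push (h : PTw P T ê) (φ : X.Hm Y) :
    PTw (P.map φ) (T.push φ) fun j => (T.map φ).f (ê j) := h.push₀ φ

theorem push_prim (h : PTw P T ê) (φ : X.Hm Y) {N : ℕ} {F : MvPolynomial P.σ k}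
    (p : PD P.w P.f N P.Q1 F) : (T.map φ).f (h.Kh.prim p) = (push h φ).Kh.prim p :=
  Kz.map_prim (T.map φ) h.Kh (push h φ).Kh p (Tw.map_inc T φ P.B.y) fun _ => rfl

/-- the first class is natural -/
theorem push_y₁ (h : PTw P T ê) (φ : X.Hm Y) : (T.map φ).f h.y₁ = (push h φ).y₁ := by
  unfold PTw.y₁
  rw [map_sub, Tw.map_inc, push_prim h φ P.p₁]
  rfl

/-- the second class is natural -/
theorem push_y₂ (h : PTw P T ê) (φ : X.Hm Y) : (T.map φ).f h.y₂ = (push h φ).y₂ := by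
  unfold PTw.y₂
  rw [map_sub, Tw.map_inc, push_prim h φ P.p₂]
  rfl

end Push

/-! ### Germs of forms -/

section Fam

open Vale.Agent.P231.Fm Vale.Agent.P216.V1 Vale.Agent.P216.H285V

variable {E : Type} (F : Fam E)

/-- the algebra of forms at one scale -/
noncomputable abbrev sc (ε : ℝ) : CD.{1} ℝ := ⟨Form (F.D ε), fC (F.D ε)⟩

/-- the algebra of germs -/
noncomputable abbrev gm : CD.{1} ℝ := ⟨F.GA, F.cdga⟩

/-- restriction to a smaller scale -/
noncomputable def resH {ε ε' : ℝ} (h : ε ≤ ε') : (sc F ε').Hm (sc F ε) := fHom id (F.mono h)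

/-- the map to the germs -/
noncomputable def gmH {ε : ℝ} (h : 0 < ε) : (sc F ε).Hm (gm F) := F.sys.ofHom (Sc.mk ε h)

@[simp] theorem gmH_f {ε : ℝ} (h : 0 < ε) (w : Form (F.D ε)) : (gmH F h).f w = F.germ h w := rfl

theorem resH_f {ε ε' : ℝ} (h : ε ≤ ε') (w : Form (F.D ε')) : (resH F h).f w = F.res h w := rfl

theorem gmH_res {ε ε' : ℝ} (h : 0 < ε) (h' : 0 < ε') (hε : ε ≤ ε') :
    (gmH F h).comp (resH F hε) = gmH F h' := hom_ext fun a => F.germ_res h h' hε a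

theorem resH_res {a b c : ℝ} (h : a ≤ b) (h' : b ≤ c) :
    (resH F h).comp (resH F h') = resH F (h.trans h') := hom_ext fun x => F.res_res h h' x

/-- **A pair of germs comes from one scale**, arbitrarily small. -/
theorem exists_rep (T : Pair F.cdga) {ε₁ : ℝ} (h₁ : 0 < ε₁) :
    ∃ (ε : ℝ) (h : 0 < ε), ε ≤ ε₁ ∧ ∃ P : Pair (fC (F.D ε)), P.map (gmH F h) = T := by
  obtain ⟨i, hi, P, hP⟩ := exists_pair F.sys T (Sc.mk ε₁ h₁)
  exact ⟨i.v, i.pos, hi, P, hP⟩

/-- the pair at a smaller scale has the same germ -/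
theorem rep_res {ε ε' : ℝ} (h : 0 < ε) (h' : 0 < ε') (hε : ε ≤ ε') (P : Pair (fC (F.D ε'))) :
    (P.map (resH F hε)).map (gmH F h) = P.map (gmH F h') := by
  rw [pair_map_map]
  exact congrArg P.map (gmH_res F h h' hε)

/-- **REP**: the second odd generator of the germs gives a pair, its Koszul tower and the two
classes at one scale. -/
theorem rep_of {f₂ : ℕ} (T : Two F.dga f₂) {ε₁ : ℝ} (h₁ : 0 < ε₁) :
    ∃ (ε : ℝ) (h : 0 < ε), ε ≤ ε₁ ∧ ∃ (P : Pair (sc F ε).C) (T₀ : Tw (sc F ε))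
      (ê : P.σ → T₀.top.A), P.map (gmH F h) = pairOf (D := F.cdga) T ∧ PTw P T₀ ê := by
  obtain ⟨ε, h, hε, P, hP⟩ := exists_rep F (pairOf (D := F.cdga) T) h₁
  obtain ⟨T₀, ê, hT⟩ := V775.exists_PTw (X := sc F ε) P
  exact ⟨ε, h, hε, P, T₀, ê, hP, hT⟩

end Fam

end Vale.Agent.P216.V773
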