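import Vale.Agent.P216.V773.WG
import Vale.Agent.P216.V706.Main
import Vale.Agent.P216.H215.SCGlue
import Vale.Agent.P216.D773.Desc
import Vale.Agent.P216.B609.FinMan
import Vale.Agent.P216.H934D.Bridge
import Vale.Agent.P216.D311.Bridge

/-!
# P216-V, V1-G (helper773): the hypotheses of V2 for a closed simply connected manifold
-/

set_option linter.unusedSectionVars false
set_option linter.unusedVariables false

open Set Filter Topology Bundle Manifold
open scoped ContDiff

namespace Vale.Agent.P216.V773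

open Vale.Agent.P231.Fm Vale.Agent.P216.V1 Vale.Agent.P216.H285V
open Vale.Agent.P216.V609 (Cdga)
open Vale.Agent.P216.V706 (Dga Two)
open Vale.Agent.P216.V754 (WData)
open Vale.Agent.P216.Sl (CocL ExL cls cls_eq_zero toL ofL)
open Vale.Agent.P216.ASCoh (Cochain IsCocycle IsCobd power Monogenic)

noncomputable section

section Gen

variable {E : Type} [PseudoMetricSpace E] {X : Set E}

theorem Wv_one {ε : ℝ} : Wv X ε 0 (fun _ => 1) = 1 := by
  change Wc.sW 0 • Wc.em (Wc.AA 0 fun _ => 1) = (1 : Form (DM X ε))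
  rw [Wc.sW_zero, one_smul]
  refine Form.ext_val fun V _ _ _ u s h => ?_
  obtain ⟨F, hF⟩ := h
  have h1 : (DM X ε).At u s := ⟨F, hF⟩
  have h2 : Supp (id : E → E) (id : E → E) X X ε F (fun y => (u y, ([] : List E))) s :=
    ⟨hF.smF, ⟨by simp, by simp⟩, by simp, Eventually.of_forall fun _ => rfl, hF.out, hF.sum,
      hF.sm⟩
  rw [Wc.em_val _ h1, Form.one_val h1, Wc.AA, Wc.RR_zero, S_val _ _ h2]
  have h3 : ∀ x ∈ F, (u s x) • (cst (fun _ => (1 : ℝ)) : Form (DT (id : E → E) (id : E → E) X X ε)).val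
      (fun y => (u y, [x])) s = (u s x) • (1 : Lam V) := by
    intro x hx
    congr 1
    exact (cst_val (fun _ => (1 : ℝ)) (h2.ins (Wc.ins_id X) hx)).trans (map_one _)
  refine (Finset.sum_congr rfl h3).trans ?_
  rw [← Finset.sum_smul, hF.sum.self_of_nhds, one_smul]

theorem Wg_one (h : WS X) : Wg X 0 (fun _ => 1) = 1 := by
  rw [Wg_eq h one_pos, Wv_one, map_one]

theorem sub_mem_B {C : Cdga ℝ (vr X).GA} {n : ℕ} {a b : (vr X).GA} (h : a - b ∈ C.B n)
    (hb : b ∈ C.B n) : a ∈ C.B n := by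
  have := Submodule.add_mem _ h hb
  rwa [sub_add_cancel] at this

/-- if every cocycle is exact then the germ algebra is exact -/
theorem Z_le_B (h : WS X) {n : ℕ} (H : ∀ f : List E → ℝ, CocL X n f → ExL X n f) :
    (vr X).cdga.Z n ≤ (vr X).cdga.B n := by
  intro a ha
  obtain ⟨f, hf, h1⟩ := Wg_surj h n a ha
  exact sub_mem_B h1 ((mem_B_iff h hf).2 (H f hf))

/-- `H^0` -/
theorem Z_zero (h : WS X) (H : ∀ f : List E → ℝ, CocL X 0 f → ∃ c : ℝ, ExL X 0 fun l => f l - c) :
    ∀ a ∈ (vr X).cdga.Z 0, ∃ c : ℝ, a = c • (1 : (vr X).GA) := by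
  intro a ha
  obtain ⟨f, hf, h1⟩ := Wg_surj h 0 a ha
  obtain ⟨c, g, hg, ε, hε, hc⟩ := H f hf
  refine ⟨c, ?_⟩
  rw [(vr X).mem_B_zero, sub_eq_zero] at h1
  rw [h1, ← Wg_one h, ← map_smul]
  refine Wg_congr h 0 _ _ ⟨ε, hε, fun l hl hs => ?_⟩
  have h2 := hc l hl hs
  rw [show g = fun _ => 0 from funext (hg rfl), PS.dl_zero_fun, sub_eq_zero] at h2
  rw [h2]
  simp

/-- `1 ≠ 0` -/
theorem one_ne (h : WS X) (H : ¬ ExL X 0 fun _ => (1 : ℝ)) : (1 : (vr X).GA) ≠ 0 := by
  intro h1
  refine H (exL_of_mem_B h ⟨1, one_pos, fun l hl _ => ?_⟩ ?_)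
  · obtain ⟨x, y, rfl⟩ := List.length_eq_two.1 hl
    rw [N929.dl_cons, N929.dl_cons, N929.dl_nil]
    ring
  · rw [Wg_one h, h1]
    exact Submodule.zero_mem _

/-- finite-dimensional cohomology -/
theorem fin_of (h : WS X) {q : ℕ} {I : Type} [IsEmpty I] (a : I → E → E) (χ : I → ℝ)
    [Module.Finite ℝ (AS.Ha a χ X q)] : (vr X).dga.Fin q := by
  classical
  obtain ⟨s, hs⟩ := (Module.Finite.fg_top : (⊤ : Submodule ℝ (AS.Ha a χ X q)).FG)
  choose g hg hgN hgz using fun z : AS.Ha a χ X q => Sl.exists_cls z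
  let W : Submodule ℝ (vr X).GA := Submodule.span ℝ ((fun z => Wg X q (g z)) '' (s : Set _))
  have hW : FiniteDimensional ℝ W :=
    FiniteDimensional.span_of_finite ℝ ((Finset.finite_toSet s).image _)
  refine ⟨W, hW, fun b hb => ?_⟩
  obtain ⟨f, hf, h1⟩ := Wg_surj h q b hb
  have key : ∀ z ∈ Submodule.span ℝ (s : Set (AS.Ha a χ X q)), ∀ f, ∀ hf : CocL X q f,
      cls a χ f hf = z → Wg X q f ∈ W ⊔ (vr X).cdga.B q := by
    have ex : ∀ f f' : List E → ℝ, ∀ hf : CocL X q f, ∀ hf' : CocL X q f',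
        cls a χ f hf = cls a χ f' hf' → Wg X q f' ∈ W ⊔ (vr X).cdga.B q →
        Wg X q f ∈ W ⊔ (vr X).cdga.B q := by
      intro f f' hf hf' he hm
      have h2 := Sl.cls_eq_cls.1 he
      have h3 := (wd h).exact h2
      have h4 : Wg X q f = Wg X q (fun l => f l - f' l) + Wg X q f' := by
        rw [← map_add]
        congr 1
        funext l
        simp
      rw [h4]
      exact Submodule.add_mem _ (Submodule.mem_sup_right h3) hm
    intro z hz
    induction hz using Submodule.span_induction with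
    | mem z hz =>
      intro f hf he
      refine ex f (g z) hf (hg z) (he.trans (hgz z).symm) (Submodule.mem_sup_left ?_)
      exact Submodule.subset_span ⟨z, hz, rfl⟩
    | zero =>
      intro f hf he
      exact Submodule.mem_sup_right ((wd h).exact (cls_eq_zero.1 he))
    | add z z' _ _ ih ih' =>
      intro f hf he
      refine ex f (fun l => g z l + g z' l) hf ((hg z).add (hg z')) ?_ ?_
      · rw [he, ← Sl.cls_add (hg z) (hg z'), hgz, hgz]
      · have h4 : Wg X q (fun l => g z l + g z' l) = Wg X q (g z) + Wg X q (g z') := by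
          rw [← map_add]
          rfl
        rw [h4]
        exact Submodule.add_mem _ (ih _ (hg z) (hgz z)) (ih' _ (hg z') (hgz z'))
    | smul c z _ ih =>
      intro f hf he
      refine ex f (fun l => c * g z l) hf ((hg z).smul c) ?_ ?_
      · rw [he, ← Sl.cls_smul c (hg z), hgz]
      · have h4 : Wg X q (fun l => c * g z l) = c • Wg X q (g z) := by
          rw [← map_smul]
          rfl
        rw [h4]
        exact Submodule.smul_mem _ _ (ih _ (hg z) (hgz z))
  have h2 := key (cls a χ f hf) (hs ▸ Submodule.mem_top) f hf rfl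
  have h3 := Submodule.add_mem _ (Submodule.mem_sup_right (S := W) h1) h2
  rwa [sub_add_cancel] at h3

/-! ### Powers -/

theorem mul_mem_B_left {C : Cdga ℝ (vr X).GA} {p q : ℕ} {z b : (vr X).GA} (hz : z ∈ C.Z p)
    (hb : b ∈ C.B q) : z * b ∈ C.B (p + q) := by
  cases q with
  | zero =>
    have h0 : b = 0 := hb
    rw [h0, mul_zero]
    exact Submodule.zero_mem _
  | succ q =>
    obtain ⟨c, hc, rfl⟩ := hb
    refine ⟨(-1 : ℝ) ^ p • (z * c), Submodule.smul_mem _ _ (C.mul_mem hz.1 hc), ?_⟩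
    have h1 : C.d z = 0 := hz.2
    rw [map_smul, C.leib, h1, zero_mul, zero_add, C.sg_deg hz.1, smul_mul_assoc, smul_smul,
      ← mul_pow]
    simp

theorem mul_mem_B_right {C : Cdga ℝ (vr X).GA} {p q : ℕ} {z b : (vr X).GA} (hz : z ∈ C.Z q)
    (hb : b ∈ C.B p) : b * z ∈ C.B (p + q) := by
  cases p with
  | zero =>
    have h0 : b = 0 := hb
    rw [h0, zero_mul]
    exact Submodule.zero_mem _
  | succ p =>
    obtain ⟨c, hc, rfl⟩ := hb
    rw [show p + 1 + q = p + q + 1 by omega]
    refine ⟨c * z, C.mul_mem hc hz.1, ?_⟩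
    have h1 : C.d z = 0 := hz.2
    rw [C.leib, h1, mul_zero, add_zero]

theorem mul_mem_Z {C : Cdga ℝ (vr X).GA} {p q : ℕ} {a b : (vr X).GA} (ha : a ∈ C.Z p)
    (hb : b ∈ C.Z q) : a * b ∈ C.Z (p + q) :=
  ⟨C.mul_mem ha.1 hb.1, C.d_mul_closed ha.2 hb.2⟩

theorem pow_mem_Z {C : Cdga ℝ (vr X).GA} {p : ℕ} {a : (vr X).GA} (ha : a ∈ C.Z p) (j : ℕ) :
    a ^ j ∈ C.Z (p * j) := by
  induction j with
  | zero => exact ⟨by rw [pow_zero]; exact C.one_mem, by
      change C.d (a ^ 0) = 0
      rw [pow_zero, C.d_one]⟩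
  | succ j ih =>
    rw [pow_succ]
    exact mul_mem_Z ih ha

/-- powers of cohomologous cocycles are cohomologous -/
theorem pow_sub_pow_mem {C : Cdga ℝ (vr X).GA} {p : ℕ} {a b : (vr X).GA} (ha : a ∈ C.Z p)
    (hb : b ∈ C.Z p) (h : a - b ∈ C.B p) (j : ℕ) : a ^ j - b ^ j ∈ C.B (p * j) := by
  induction j with
  | zero =>
    rw [pow_zero, pow_zero, sub_self]
    exact Submodule.zero_mem _
  | succ j ih =>
    have h1 : a ^ (j + 1) - b ^ (j + 1) = (a ^ j - b ^ j) * a + b ^ j * (a - b) := by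
      rw [pow_succ, pow_succ, sub_mul, mul_sub]
      abel
    rw [h1]
    exact Submodule.add_mem _ (mul_mem_B_right ha ih) (mul_mem_B_left (pow_mem_Z hb j) h)

theorem cocL_cup {k : Type} [Field k] {p q : ℕ} {f g : List E → k} (hf : CocL X p f)
    (hg : CocL X q g) : CocL X (p + q) (N929.cup p f g) := by
  obtain ⟨ε, hε, hf⟩ := hf
  obtain ⟨ε', hε', hg⟩ := hg
  refine ⟨min ε ε', lt_min hε hε', fun l hl hs => ?_⟩
  have h1 : Sl.dl f (l.take (p + 2)) = 0 :=
    hf _ (by rw [List.length_take]; omega) ⟨fun x hx => hs.1 x (List.mem_of_mem_take hx),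
      fun x hx y hy => (hs.2 x (List.mem_of_mem_take hx) y
        (List.mem_of_mem_take hy)).trans_le (min_le_left _ _)⟩
  have h2 : Sl.dl g (l.drop p) = 0 :=
    hg _ (by rw [List.length_drop]; omega) ⟨fun x hx => hs.1 x (List.mem_of_mem_drop hx),
      fun x hx y hy => (hs.2 x (List.mem_of_mem_drop hx) y
        (List.mem_of_mem_drop hy)).trans_le (min_le_right _ _)⟩
  rw [N929.dl_cup p f g l (by omega), h1, h2, zero_mul, mul_zero, mul_zero, add_zero]

end Gen

/-! ### Compact spaces -/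

section Cpt

variable {M : Type} [MetricSpace M] [CompactSpace M]

/-- the powers of a class -/
theorem Wg_power (h : WS (univ : Set M)) {e : ℕ} (x : Cochain M ℝ e) (hx : CocL univ e (toL x))
    (j : ℕ) : CocL (univ : Set M) (e * j) (toL (power x j)) ∧
      Wg univ (e * j) (toL (power x j)) = Wg univ e (toL x) ^ j := by
  induction j with
  | zero =>
    have h1 : ∀ l : List M, l.length = 1 → toL (power x 0) l = 1 := fun l hl => by
      obtain ⟨σ, rfl⟩ := Sl.exists_ofFn hl
      exact Sl.toL_ofFn _ _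
    refine ⟨⟨1, one_pos, fun l hl _ => ?_⟩, ?_⟩
    · obtain ⟨y, z, rfl⟩ := List.length_eq_two.1 hl
      rw [N929.dl_cons, N929.dl_cons, N929.dl_nil, h1 _ rfl, h1 _ rfl]
      ring
    · rw [pow_zero, ← Wg_one h]
      exact Wg_congr h 0 _ _ ⟨1, one_pos, fun l hl _ => h1 l hl⟩
  | succ j ih =>
    have h1 : ∀ l : List M, l.length = e * j + e + 1 → toL (power x (j + 1)) l =
        N929.cup (e * j) (toL (power x j)) (toL x) l := fun l hl =>
      H934D.toL_cup (power x j) x l hl
    have h2 := cocL_cup ih.1 hx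
    have h3 : CocL (univ : Set M) (e * j + e) (toL (power x (j + 1))) :=
      H934D.cocL_congr h2 h1
    refine ⟨h3, ?_⟩
    rw [pow_succ, ← ih.2, ← Wg_cup h e (toL x) ih.1]
    exact Wg_congr h (e * j + e) _ _ ⟨1, one_pos, fun l hl _ => h1 l hl⟩

/-- **a ring generated by one class** -/
theorem monogenic_of_mono (h : WS (univ : Set M)) (hM : (vr (univ : Set M)).dga.Mono) :
    ∃ d m : ℕ, 1 ≤ d ∧ Monogenic M ℝ d m := by
  obtain ⟨e, m, x, he, hx, hne, hsp⟩ := hM
  obtain ⟨f, hf, h1⟩ := Wg_surj h e x hx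
  have hk : ∀ l : List M, l.length = e + 1 → toL (ofL (e + 1) f) l = f l := fun l hl =>
    Sl.toL_ofL f hl
  have hf' : CocL (univ : Set M) e (toL (ofL (e + 1) f : Cochain M ℝ e)) :=
    H934D.cocL_congr hf hk
  have hW : Wg univ e (toL (ofL (e + 1) f : Cochain M ℝ e)) = Wg univ e f :=
    Wg_congr h e _ _ ⟨1, one_pos, fun l hl _ => hk l hl⟩
  set x' : Cochain M ℝ e := ofL (e + 1) f with hx'
  have hZ : Wg (univ : Set M) e (toL x') ∈ (vr (univ : Set M)).cdga.Z e := Wg_mem_Z h hf'
  have hB : x - Wg univ e (toL x') ∈ (vr (univ : Set M)).cdga.B e := by rw [hW]; exact h1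
  have hpow : ∀ j, x ^ j - Wg univ (e * j) (toL (power x' j)) ∈
      (vr (univ : Set M)).cdga.B (e * j) := fun j => by
    rw [(Wg_power h x' hf' j).2]
    exact pow_sub_pow_mem hx hZ hB j
  refine ⟨e, m, he, x', (H934D.isCocycle_iff x').2 hf', fun j hj hex => ?_, fun q g hg => ?_⟩
  · refine hne j hj ?_
    have h2 := (wd h).exact ((H934D.isCobd_iff _).1 hex)
    exact sub_mem_B (hpow j) h2
  · have hg' := (H934D.isCocycle_iff g).1 hg
    rcases hsp q _ (Wg_mem_Z h hg') with h2 | ⟨j, hj, rfl, c, h2⟩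
    · exact Or.inl ((H934D.isCobd_iff g).2 (exL_of_mem_B h hg' h2))
    · refine Or.inr ⟨j, hj, rfl, c, (H934D.isCobd_iff _).2 ?_⟩
      have h3 := (Wg_power h x' hf' j).1
      have h4 : ∀ l : List M, toL (g - c • power x' j) l =
          toL g l - c * toL (power x' j) l := fun l => by
        rw [H934D.toL_sub', H934D.toL_smul']
      have h5 : toL (g - c • power x' j) = fun l => toL g l - c * toL (power x' j) l :=
        funext h4
      refine exL_of_mem_B h ?_ ?_
      · rw [h5]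
        exact hg'.sub (h3.smul c)
      · have h6 : Wg univ (e * j) (toL (g - c • power x' j)) =
            Wg univ (e * j) (toL g) - c • Wg univ (e * j) (toL (power x' j)) := by
          rw [← map_smul, ← map_sub, h5]
          rfl
        rw [h6]
        have h7 : Wg univ (e * j) (toL g) - c • Wg univ (e * j) (toL (power x' j)) =
            (Wg univ (e * j) (toL g) - c • x ^ j) +
              c • (x ^ j - Wg univ (e * j) (toL (power x' j))) := by
          rw [smul_sub]
          abel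
        rw [h7]
        exact Submodule.add_mem _ h2 (Submodule.smul_mem _ _ (hpow j))

theorem not_exL_one [Nonempty M] : ¬ ExL (univ : Set M) 0 fun _ => (1 : ℝ) := by
  rintro ⟨g, hg, ε, hε, h⟩
  obtain ⟨b⟩ := ‹Nonempty M›
  have h1 := h [b] rfl ⟨fun _ _ => mem_univ _, fun x hx y hy => by
    rw [List.mem_singleton.1 hx, List.mem_singleton.1 hy, dist_self]
    exact hε⟩
  rw [show g = fun _ => 0 from funext (hg rfl), PS.dl_zero_fun] at h1
  exact one_ne_zero h1

theorem exL_sub_const [ConnectedSpace M] {f : List M → ℝ} (hf : CocL (univ : Set M) 0 f) :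
    ∃ c : ℝ, ExL (univ : Set M) 0 fun l => f l - c := by
  obtain ⟨ε, hε, hf⟩ := hf
  obtain ⟨b⟩ : Nonempty M := inferInstance
  have h1 : ∀ x y : M, dist x y < ε → f [x] = f [y] := fun x y hxy => by
    have h2 := hf [x, y] rfl ⟨fun _ _ => mem_univ _, fun a ha c hc => by
      simp only [List.mem_cons, List.not_mem_nil, or_false] at ha hc
      rcases ha with rfl | rfl <;> rcases hc with rfl | rfl
      · rw [dist_self]; exact hε
      · exact hxy
      · rw [dist_comm]; exact hxy
      · rw [dist_self]; exact hε⟩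
    rw [N929.dl_cons, N929.dl_cons, N929.dl_nil] at h2
    linarith
  have h2 : IsLocallyConstant fun x : M => f [x] := by
    refine (IsLocallyConstant.iff_eventually_eq _).2 fun x => ?_
    filter_upwards [Metric.ball_mem_nhds x hε] with y hy
    exact h1 y x hy
  refine ⟨f [b], fun _ => 0, fun _ _ => rfl, ε, hε, fun l hl _ => ?_⟩
  obtain ⟨x, rfl⟩ := List.length_eq_one_iff.1 hl
  have h3 : f [x] = f [b] :=
    h2.apply_eq_of_isPreconnected isPreconnected_univ (mem_univ x) (mem_univ b)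
  rw [PS.dl_zero_fun]
  change f [x] - f [b] = 0
  rw [h3, sub_self]

end Cpt

/-! ### Closed simply connected manifolds -/

section Man

/-- **V2-M.** The germ algebra of a closed simply connected Riemannian manifold whose rational
cohomology ring is not generated by one class has a second odd generator. -/
theorem two_M_of (E : Type) [NormedAddCommGroup E] [NormedSpace ℝ E] [FiniteDimensional ℝ E]
    {N : Type} [MetricSpace N] [CompactSpace N] [ChartedSpace E N] [IsManifold 𝓘(ℝ, E) ∞ N]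
    [RiemannianBundle (fun x : N => TangentSpace 𝓘(ℝ, E) x)]
    [IsContMDiffRiemannianBundle 𝓘(ℝ, E) ∞ E (fun x : N => TangentSpace 𝓘(ℝ, E) x)]
    [IsRiemannianManifold 𝓘(ℝ, E) N] [SimplyConnectedSpace N] (h : WS (univ : Set N))
    (hn : 1 ≤ Module.finrank ℝ E) (hM : ∀ d h : ℕ, ¬ Monogenic N ℚ d h) :
    ∃ f₂, Nonempty (Two (vr (univ : Set N)).dga f₂) := by
  obtain ⟨-, -, hF, ρ, hρ, hU, -⟩ := D311.riem_data E N hn
  refine V706.two_of (n := Module.finrank ℝ E) ?_ ?_ ?_ ?_ ?_ ?_
  · exact one_ne h not_exL_one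
  · exact Z_zero h fun f hf => exL_sub_const hf
  · exact Z_le_B h fun f hf => H215.exL_one E hf
  · intro q
    have := (hF ℝ two_ne_zero).1 q
    exact fin_of h (B64.a0 N) (B64.c0 ℝ)
  · intro q hq
    exact Z_le_B h fun f hf => D246.exL_above_mfd (E := E) two_ne_zero rfl hn hq hf
  · intro hmono
    obtain ⟨d, m, hd, hK⟩ := monogenic_of_mono h hmono
    exact hM d m (D773.monogenic_rat hρ hU hd hK)

end Man

end

end Vale.Agent.P216.V773
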