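import Vale.Agent.P216.V1.W
import Vale.Agent.P216.H285V.Germ
import Vale.Agent.P216.V754.WData

/-!
# P216-V, V1-G (helper773): the germ algebra and list cochains

`WS X`: the properties of the map `W` at one scale (961). `wd : WData (vr X).cdga X`: the induced
map to germs; `wd_mem_B`: it is injective on cohomology; `wd_cup`, `wd_one`: it is multiplicative.
-/

set_option linter.unusedSectionVars false
set_option linter.unusedVariables false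

open Set Filter Topology

namespace Vale.Agent.P216.V773

open Vale.Agent.P231.Fm Vale.Agent.P216.V1 Vale.Agent.P216.H285V
open Vale.Agent.P216.V609 (Cdga)
open Vale.Agent.P216.V754 (WData)
open Vale.Agent.P216.Sl (CocL ExL)

noncomputable section

variable {E : Type} [PseudoMetricSpace E]

/-- a cocycle on the `ε`-small lists -/
def CocE (X : Set E) (ε : ℝ) (n : ℕ) (f : List E → ℝ) : Prop :=
  ∀ l, l.length = n + 2 → PS.SmL X ε l → Sl.dl f l = 0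

theorem CocE.mono {X : Set E} {ε ε' : ℝ} {n : ℕ} {f : List E → ℝ} (h : CocE X ε' n f)
    (hε : ε ≤ ε') : CocE X ε n f :=
  fun l hl hs => h l hl (hs.mono Subset.rfl hε)

/-- `W`, with values in the forms of the family `vr X` -/
def Wv (X : Set E) (ε : ℝ) (n : ℕ) : (List E → ℝ) →ₗ[ℝ] Form ((vr X).D ε) := Wc.W X ε n

theorem Wv_isDeg (X : Set E) (ε : ℝ) (n : ℕ) (f : List E → ℝ) : Form.IsDeg n (Wv X ε n f) :=
  Wc.W_isDeg n f

theorem Wv_d (X : Set E) (ε : ℝ) (n : ℕ) (f : List E → ℝ) :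
    (Wv X ε n f).d = Wv X ε (n + 1) (Sl.dl f) := Wc.W_d n f

theorem Wv_congr {X : Set E} {ε : ℝ} (n : ℕ) {f g : List E → ℝ}
    (h : ∀ l, l.length = n + 1 → PS.SmL X ε l → f l = g l) : Wv X ε n f = Wv X ε n g :=
  Wc.W_congr n h

theorem Wv_cup {X : Set E} {ε : ℝ} (p q : ℕ) {f g : List E → ℝ} (hf : CocE X ε p f) :
    Wv X ε (p + q) (N929.cup p f g) = Wv X ε p f * Wv X ε q g := Wc.W_cup p q hf

/-- the properties of `W` at one scale -/
structure WS (X : Set E) : Prop where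
  res : ∀ {ε ε' : ℝ} (h : ε ≤ ε') (n : ℕ) (f : List E → ℝ),
    (vr X).res h (Wv X ε' n f) = Wv X ε n f
  surj0 : ∀ {ε : ℝ}, 0 < ε → ∀ a : Form ((vr X).D ε), Form.IsDeg 0 a → a.d = 0 →
    ∃ f, CocE X ε 0 f ∧ a = Wv X ε 0 f
  surj : ∀ {ε : ℝ}, 0 < ε → ∀ (n : ℕ) (a : Form ((vr X).D ε)), Form.IsDeg (n + 1) a → a.d = 0 →
    ∃ f, CocE X ε (n + 1) f ∧ ∃ b, Form.IsDeg n b ∧ a = Wv X ε (n + 1) f + b.d
  inj0 : ∀ {ε : ℝ}, 0 < ε → ∀ f : List E → ℝ, CocE X ε 0 f → Wv X ε 0 f = 0 →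
    ∀ l, l.length = 1 → PS.SmL X ε l → f l = 0
  inj : ∀ {ε : ℝ}, 0 < ε → ∀ (n : ℕ) (f : List E → ℝ) (b : Form ((vr X).D ε)),
    CocE X ε (n + 1) f → Form.IsDeg n b → Wv X ε (n + 1) f = b.d →
    ∃ g : List E → ℝ, ∀ l, l.length = n + 2 → PS.SmL X ε l → f l = Sl.dl g l

variable {X : Set E}

/-- the germ of `W n f` -/
def Wg (X : Set E) (n : ℕ) : (List E → ℝ) →ₗ[ℝ] (vr X).GA :=
  ((vr X).germ one_pos).toLinearMap ∘ₗ Wv X 1 n

theorem Wg_eq (h : WS X) {ε : ℝ} (hε : 0 < ε) (n : ℕ) (f : List E → ℝ) :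
    Wg X n f = (vr X).germ hε (Wv X ε n f) := by
  have hm : 0 < min ε 1 := lt_min hε one_pos
  change (vr X).germ one_pos (Wv X 1 n f) = _
  rw [← (vr X).germ_res hm one_pos (min_le_right ε 1), ← (vr X).germ_res hm hε (min_le_left ε 1),
    h.res, h.res]

theorem Wg_mem (n : ℕ) (f : List E → ℝ) : Wg X n f ∈ (vr X).cdga.deg n :=
  (vr X).germ_mem_deg one_pos (Wv_isDeg X 1 n f)

theorem Wg_d (n : ℕ) (f : List E → ℝ) :
    (vr X).cdga.d (Wg X n f) = Wg X (n + 1) (Sl.dl f) := by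
  change (vr X).cdga.d ((vr X).germ one_pos (Wv X 1 n f)) = _
  rw [(vr X).d_germ, Wv_d]
  rfl

theorem Wg_congr (h : WS X) (n : ℕ) (f g : List E → ℝ)
    (hfg : ∃ ε > 0, ∀ l, l.length = n + 1 → PS.SmL X ε l → f l = g l) : Wg X n f = Wg X n g := by
  obtain ⟨ε, hε, hfg⟩ := hfg
  rw [Wg_eq h hε, Wg_eq h hε, Wv_congr n hfg]

theorem Wg_surj (h : WS X) (n : ℕ) (z : (vr X).GA) (hz : z ∈ (vr X).cdga.Z n) :
    ∃ f, CocL X n f ∧ z - Wg X n f ∈ (vr X).cdga.B n := by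
  obtain ⟨ε, hε, -, w, hw, hd, rfl⟩ := (vr X).exists_Z hz one_pos
  cases n with
  | zero =>
    obtain ⟨f, hf, rfl⟩ := h.surj0 hε w hw hd
    refine ⟨f, ⟨ε, hε, hf⟩, ?_⟩
    rw [Wg_eq h hε, sub_self]
    exact Submodule.zero_mem _
  | succ n =>
    obtain ⟨f, hf, b, hb, rfl⟩ := h.surj hε n w hw hd
    refine ⟨f, ⟨ε, hε, hf⟩, ?_⟩
    rw [Wg_eq h hε, map_add, add_sub_cancel_left, ← (vr X).d_germ]
    exact ⟨_, (vr X).germ_mem_deg hε hb, rfl⟩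

/-- **the map from list cochains to germs of forms** -/
def wd (h : WS X) : WData (vr X).cdga X where
  W := Wg X
  mem := Wg_mem
  d := Wg_d
  congr := Wg_congr h
  surj := Wg_surj h

@[simp] theorem wd_W (h : WS X) : (wd h).W = Wg X := rfl

/-- **injectivity on cohomology** -/
theorem exL_of_mem_B (h : WS X) {n : ℕ} {f : List E → ℝ} (hf : CocL X n f)
    (hB : Wg X n f ∈ (vr X).cdga.B n) : ExL X n f := by
  obtain ⟨ε, hε, hf⟩ := hf
  cases n with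
  | zero =>
    rw [(vr X).mem_B_zero, Wg_eq h hε, (vr X).germ_eq_zero] at hB
    obtain ⟨δ, h1, hδ, h2⟩ := hB
    rw [h.res] at h2
    refine ⟨fun _ => 0, fun _ _ => rfl, δ, hδ, fun l hl hs => ?_⟩
    rw [h.inj0 hδ f (CocE.mono hf h1) h2 l hl hs, PS.dl_zero_fun]
  | succ n =>
    rw [Wg_eq h hε, (vr X).mem_B_succ] at hB
    obtain ⟨δ, h1, hδ, b, hb, h2⟩ := hB
    rw [h.res] at h2
    obtain ⟨g, hg⟩ := h.inj hδ n f b (CocE.mono hf h1) hb h2.symm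
    exact ⟨g, fun h0 => absurd h0 (Nat.succ_ne_zero n), δ, hδ, hg⟩

theorem mem_B_iff (h : WS X) {n : ℕ} {f : List E → ℝ} (hf : CocL X n f) :
    Wg X n f ∈ (vr X).cdga.B n ↔ ExL X n f :=
  ⟨exL_of_mem_B h hf, fun hex => (wd h).exact hex⟩

theorem Wg_mem_Z (h : WS X) {n : ℕ} {f : List E → ℝ} (hf : CocL X n f) :
    Wg X n f ∈ (vr X).cdga.Z n := by
  refine ⟨Wg_mem n f, ?_⟩
  change (vr X).cdga.d (Wg X n f) = 0
  obtain ⟨ε, hε, hf⟩ := hf
  rw [Wg_d, Wg_congr h (n + 1) (Sl.dl f) 0 ⟨ε, hε, fun l hl hs => hf l hl hs⟩, map_zero]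

/-- **multiplicativity** -/
theorem Wg_cup (h : WS X) {p : ℕ} (q : ℕ) {f : List E → ℝ} (g : List E → ℝ) (hf : CocL X p f) :
    Wg X (p + q) (N929.cup p f g) = Wg X p f * Wg X q g := by
  obtain ⟨ε, hε, hf⟩ := hf
  rw [Wg_eq h hε, Wg_eq h hε, Wg_eq h hε, Wv_cup p q hf, map_mul]

end

end Vale.Agent.P216.V773
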